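import Mathlib
import Vale.Agent.Lib.P058.Defs

namespace Vale.Agent.Lib.P058.H86

open Vale.Agent.Lib.P058

theorem kite_relation (w1 w2 : ℂ) (t : ℝ) (h1 : Complex.normSq w1 = 1) (h2 : Complex.normSq w2 = 1)
    (ht : (1 + t) * Complex.normSq (w1 - 1) = (1 - t) * Complex.normSq (w2 - 1)) :
    w1 * ((starRingEnd ℂ) w1 - w2 - 2 * (t : ℂ))
        + w2 * (starRingEnd ℂ) ((starRingEnd ℂ) w1 - w2 - 2 * (t : ℂ))
      = (1 + (t : ℂ)) * ((starRingEnd ℂ) w1 - w2 - 2 * (t : ℂ))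
        + (1 - (t : ℂ)) * (starRingEnd ℂ) ((starRingEnd ℂ) w1 - w2 - 2 * (t : ℂ)) := by
  rw [Complex.normSq_apply] at h1 h2
  rw [Complex.normSq_apply, Complex.normSq_apply] at ht
  simp only [Complex.sub_re, Complex.sub_im, Complex.one_re, Complex.one_im, sub_zero] at ht
  apply Complex.ext
  · simp only [Complex.add_re, Complex.mul_re, Complex.sub_re, Complex.sub_im, Complex.conj_re,
      Complex.conj_im, Complex.ofReal_re, Complex.ofReal_im, Complex.one_re, Complex.one_im,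
      Complex.add_im, Complex.mul_im, Complex.re_ofNat, Complex.im_ofNat, map_sub, map_mul,
      Complex.conj_conj, Complex.conj_ofReal, map_ofNat]
    linear_combination ht - t * h1 - t * h2
  · simp only [Complex.add_re, Complex.mul_re, Complex.sub_re, Complex.sub_im, Complex.conj_re,
      Complex.conj_im, Complex.ofReal_re, Complex.ofReal_im, Complex.one_re, Complex.one_im,
      Complex.add_im, Complex.mul_im, Complex.re_ofNat, Complex.im_ofNat, map_sub, map_mul,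
      Complex.conj_conj, Complex.conj_ofReal, map_ofNat]
    ring

theorem kite_norms (a b c d : ℂ) (t : ℝ) (hb : Complex.normSq b = Complex.normSq a)
    (hc : Complex.normSq c = Complex.normSq a) (hd : Complex.normSq d = Complex.normSq a)
    (hrel : b + d = (1 + (t : ℂ)) * a + (1 - (t : ℂ)) * c) :
    Complex.normSq (a - b) + Complex.normSq (a - d) = (1 - t) * Complex.normSq (a - c) ∧
    Complex.normSq (c - b) + Complex.normSq (c - d) = (1 + t) * Complex.normSq (a - c) ∧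
    Complex.normSq (b - d) = (1 - t ^ 2) * Complex.normSq (a - c) := by
  have hre := congrArg Complex.re hrel
  have him := congrArg Complex.im hrel
  simp only [Complex.add_re, Complex.mul_re, Complex.sub_re, Complex.sub_im, Complex.ofReal_re,
    Complex.ofReal_im, Complex.one_re, Complex.one_im, Complex.add_im, Complex.mul_im] at hre him
  rw [Complex.normSq_apply, Complex.normSq_apply] at hb hc hd
  simp only [Complex.normSq_apply, Complex.sub_re, Complex.sub_im]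
  refine ⟨?_, ?_, ?_⟩
  · linear_combination hb + hd - 2 * (a.re * hre + a.im * him) - (1 - t) * hc
  · linear_combination hb + hd - 2 * (c.re * hre + c.im * him) - (1 - t) * hc
  · linear_combination 2 * hb + 2 * hd
      - (b.re + d.re + ((1 + t) * a.re + (1 - t) * c.re)) * hre
      - (b.im + d.im + ((1 + t) * a.im + (1 - t) * c.im)) * him - (2 - 2 * t) * hc

theorem kite_dist_arith (N t sa sb : ℝ) (hN : 0 < N) (hsa : 0 < sa) (hsb : 0 < sb)
    (ht : (1 + t) * sa ^ 2 = (1 - t) * sb ^ 2) :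
    ∃ s : ℝ, 0 < s ∧ Real.sqrt ((1 - t) * N) = s * sa ∧ Real.sqrt ((1 + t) * N) = s * sb ∧
      Real.sqrt (2 * N) = s * Real.sqrt (sa ^ 2 + sb ^ 2) ∧
      Real.sqrt (2 * ((1 - t ^ 2) * N)) = 2 * s * sa * sb / Real.sqrt (sa ^ 2 + sb ^ 2) := by
  have hP : 0 < sa ^ 2 + sb ^ 2 := by positivity
  have e1 : (1 - t) * (sa ^ 2 + sb ^ 2) = 2 * sa ^ 2 := by linear_combination (-1 : ℝ) * ht
  have e2 : (1 + t) * (sa ^ 2 + sb ^ 2) = 2 * sb ^ 2 := by linear_combination ht
  have e3 : (1 - t ^ 2) * (sa ^ 2 + sb ^ 2) ^ 2 = 4 * sa ^ 2 * sb ^ 2 := by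
    have h : ((1 - t) * (sa ^ 2 + sb ^ 2)) * ((1 + t) * (sa ^ 2 + sb ^ 2))
        = (2 * sa ^ 2) * (2 * sb ^ 2) := by rw [e1, e2]
    linear_combination h
  have hq : 0 < 2 * N / (sa ^ 2 + sb ^ 2) := by positivity
  have hs : 0 < Real.sqrt (2 * N / (sa ^ 2 + sb ^ 2)) := Real.sqrt_pos.mpr hq
  have hs2 : Real.sqrt (2 * N / (sa ^ 2 + sb ^ 2)) ^ 2 = 2 * N / (sa ^ 2 + sb ^ 2) :=
    Real.sq_sqrt hq.le
  refine ⟨Real.sqrt (2 * N / (sa ^ 2 + sb ^ 2)), hs, ?_, ?_, ?_, ?_⟩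
  · have h : (1 - t) * N = (Real.sqrt (2 * N / (sa ^ 2 + sb ^ 2)) * sa) ^ 2 := by
      rw [mul_pow, hs2, div_mul_eq_mul_div, eq_div_iff hP.ne']
      linear_combination N * e1
    rw [h, Real.sqrt_sq (by positivity)]
  · have h : (1 + t) * N = (Real.sqrt (2 * N / (sa ^ 2 + sb ^ 2)) * sb) ^ 2 := by
      rw [mul_pow, hs2, div_mul_eq_mul_div, eq_div_iff hP.ne']
      linear_combination N * e2
    rw [h, Real.sqrt_sq (by positivity)]
  · have h : 2 * N = Real.sqrt (2 * N / (sa ^ 2 + sb ^ 2)) ^ 2 * (sa ^ 2 + sb ^ 2) := by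
      rw [hs2, div_mul_cancel₀ _ hP.ne']
    rw [h, Real.sqrt_mul (sq_nonneg _), Real.sqrt_sq hs.le, ← h]
  · have h : 2 * ((1 - t ^ 2) * N)
        = (2 * Real.sqrt (2 * N / (sa ^ 2 + sb ^ 2)) * sa * sb) ^ 2 / (sa ^ 2 + sb ^ 2) := by
      have h4 : (2 * Real.sqrt (2 * N / (sa ^ 2 + sb ^ 2)) * sa * sb) ^ 2
          = 2 * N * (4 * sa ^ 2 * sb ^ 2) / (sa ^ 2 + sb ^ 2) := by
        have h5 : (2 * Real.sqrt (2 * N / (sa ^ 2 + sb ^ 2)) * sa * sb) ^ 2
            = 4 * Real.sqrt (2 * N / (sa ^ 2 + sb ^ 2)) ^ 2 * sa ^ 2 * sb ^ 2 := by ring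
        rw [h5, hs2]
        ring
      rw [h4, ← e3, eq_div_iff hP.ne', eq_div_iff hP.ne']
      ring
    rw [h, Real.sqrt_div (sq_nonneg _), Real.sqrt_sq (by positivity)]

end Vale.Agent.Lib.P058.H86
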